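import Vale.Agent.P205F.Start.Generic.Plane
import Vale.Agent.P205F.Start.Family

/-!
# START, genericity: `GenericStmt` from the goodness lemma

Finitely many chart pieces cover the compact set; they are made good one after the other, each by
parameters so small that the earlier pieces stay good.
-/

namespace Vale.Agent.P205F.Start.Generic

open scoped ContDiff RealInnerProductSpace Topology Manifold
open Filter Set Function

universe u

variable {M : Type u} [TopologicalSpace M] [T2Space M] [ChartedSpace E2 M] [IsManifold (𝓡 2) ∞ M]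

/-- Finitely many pieces are made good one after the other. -/
lemma exists_good_pieces (hG : GoodProbStmt false) {f : M → R4} (hf : ContMDiff (𝓡 2) (𝓡 4) ∞ f)
    (hi : ∀ ψ : Chart M, IsImm fun z => f (ψ.toFun z)) {m : ℕ} (ψ : Fin m → Chart M)
    (x₀ : Fin m → E2) (φ : Fin m → E2 → ℝ) (hφ : ∀ j, ContDiff ℝ ∞ (φ j))
    (hφc : ∀ j, HasCompactSupport (φ j))
    (hφ1 : ∀ j, ∀ x ∈ Metric.closedBall (x₀ j) 1, φ j =ᶠ[𝓝 x] fun _ => 1) (T : Finset (Fin m))
    {ε : ℝ} (hε : 0 < ε) :
    ∃ l : Fin (m * nIdx) → ℝ, ‖l‖ < ε ∧ ∀ j ∈ T, ∀ p ∈ (ψ j).toFun '' Metric.closedBall (x₀ j) 1,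
      GdAt (fam f (fun k => (ψ (finProdFinEquiv.symm k).1).ext
        (fld (φ (finProdFinEquiv.symm k).1) (finProdFinEquiv.symm k).2)) l) p := by
  classical
  set Φ : Fin (m * nIdx) → M → R4 := fun k => (ψ (finProdFinEquiv.symm k).1).ext
    (fld (φ (finProdFinEquiv.symm k).1) (finProdFinEquiv.symm k).2) with hΦdef
  have hΦ : ∀ k, ContMDiff (𝓡 2) (𝓡 4) ∞ (Φ k) := fun k =>
    (ψ _).ext_contMDiff (fld_smooth (hφ _) _)
      ((hφc _).mono' ((subset_tsupport _).trans (fld_supp _ _)))
  induction T using Finset.induction_on generalizing ε with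
  | empty => exact ⟨0, by simpa using hε, fun j hj => absurd hj (Finset.notMem_empty j)⟩
  | @insert j T hj ih =>
    have hK : IsCompact (Metric.closedBall (x₀ j) 1) := isCompact_closedBall _ _
    have hinj : ∀ᶠ l in 𝓝 (0 : Fin (m * nIdx) → ℝ), ∀ x ∈ Metric.closedBall (x₀ j) 1,
        Injective (fderiv ℝ (fun z => fam f Φ l ((ψ j).toFun z)) x) := by
      refine hK.eventually_forall_of_forall_eventually fun x _ => ?_
      refine (ContinuousLinearMap.isOpen_injective.preimage
        (continuous_fderiv_fam hf hΦ (ψ j))).mem_nhds ?_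
      show Injective (fderiv ℝ (fun z => fam f Φ 0 ((ψ j).toFun z)) x)
      have h0 : (fun z => fam f Φ 0 ((ψ j).toFun z)) = fun z => f ((ψ j).toFun z) := by
        funext z; simp [fam]
      rw [h0]
      exact hi (ψ j) x
    obtain ⟨δ, hδ, hδi⟩ := Metric.eventually_nhds_iff.1 hinj
    obtain ⟨l₁, hl₁, hgood⟩ := ih (lt_min hδ (half_pos hε))
    have hprev : ∀ᶠ l in 𝓝 l₁, ∀ i ∈ T, ∀ p ∈ (ψ i).toFun '' Metric.closedBall (x₀ i) 1,
        GdAt (fam f Φ l) p :=
      (eventually_all_finset T).2 fun i hi =>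
        tube (isOpen_gdAt_fam hf hΦ) ((isCompact_closedBall _ _).image (ψ i).continuous)
          fun p hp => hgood i hi p hp
    obtain ⟨η, hη, hηg⟩ := Metric.eventually_nhds_iff.1 hprev
    have hf₁ := fam_smooth hf hΦ l₁
    obtain ⟨l₂, hl₂, hg₂⟩ := exists_plane_good hG ((ψ j).contDiff_comp hf₁) (hφ j) hK
      (fun x hx => hδi (by rw [dist_zero_right]; exact hl₁.trans_le (min_le_left _ _)) x hx)
      (hφ1 j) (lt_min hη (half_pos hε))
    set e : Fin (m * nIdx) → ℝ := fun k =>
      if (finProdFinEquiv.symm k).1 = j then l₂ (finProdFinEquiv.symm k).2 else 0 with he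
    have hen : ‖e‖ ≤ ‖l₂‖ := (pi_norm_le_iff_of_nonneg (norm_nonneg _)).2 fun k => by
      rw [he]
      simp only
      split
      · exact norm_le_pi_norm l₂ _
      · simp
    refine ⟨l₁ + e, ?_, fun i hi p hp => ?_⟩
    · refine (norm_add_le _ _).trans_lt ?_
      have h1 := hl₁.trans_le (min_le_right _ _)
      have h2 := hen.trans_lt (hl₂.trans_le (min_le_right _ _))
      linarith
    · rcases Finset.mem_insert.1 hi with rfl | hiT
      · obtain ⟨y, hy, rfl⟩ := hp
        rw [← gdAt_chart_iff]
        have hsum : (fun z => fam f Φ (l₁ + e) ((ψ i).toFun z)) =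
            fun z => fam f Φ l₁ ((ψ i).toFun z) + comb (φ i) l₂ z := by
          funext z
          have h2 : ∑ k, e k • Φ k ((ψ i).toFun z) = comb (φ i) l₂ z := by
            rw [← finProdFinEquiv.sum_comp, Fintype.sum_prod_type,
              Finset.sum_eq_single i]
            · simp only [he, hΦdef, Equiv.symm_apply_apply, if_true, Chart.ext_apply, comb]
            · intro b _ hb
              refine Finset.sum_eq_zero fun k _ => ?_
              simp only [he, Equiv.symm_apply_apply, if_neg hb, zero_smul]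
            · simp
          simp only [fam, Pi.add_apply, add_smul, Finset.sum_add_distrib, h2, add_assoc]
        rw [hsum]
        exact hg₂ y hy
      · refine hηg ?_ i hiT p hp
        rw [dist_eq_norm, add_sub_cancel_left]
        exact hen.trans_lt (hl₂.trans_le (min_le_left _ _))

/-- GENERIC: goodness by small perturbations, from the goodness lemma. -/
theorem genericStmt_of_goodProb (hG : GoodProbStmt false) : GenericStmt.{u} := by
  intro M _ _ _ _ _ f K U hf hi hK hU hKU
  classical
  have h : ∀ p : K, ∃ (ψ : Chart M) (x : E2), ψ.toFun x = p.1 ∧ range ψ.toFun ⊆ U := fun p =>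
    Chart.exists_mem (hU.mem_nhds (hKU p.2))
  choose ψ x hx hψU using h
  obtain ⟨t, ht⟩ := hK.elim_finite_subcover (fun p : K => (ψ p).toFun '' Metric.ball (x p) 1)
    (fun p => (ψ p).open_emb.isOpenMap _ Metric.isOpen_ball)
    (fun q hq => mem_iUnion.2 ⟨⟨q, hq⟩, x ⟨q, hq⟩, Metric.mem_ball_self one_pos, hx ⟨q, hq⟩⟩)
  let ψ' : Fin t.card → Chart M := fun j => ψ (t.equivFin.symm j).1
  let x' : Fin t.card → E2 := fun j => x (t.equivFin.symm j).1
  let b : ∀ j, ContDiffBump (x' j) := fun j => ⟨2, 3, two_pos, by norm_num⟩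
  refine ⟨t.card * nIdx, fun k => (ψ' (finProdFinEquiv.symm k).1).ext
    (fld (fun z => b (finProdFinEquiv.symm k).1 z) (finProdFinEquiv.symm k).2), fun k => ?_,
    fun k => ?_, fun ε hε => ?_⟩
  · exact (ψ' _).ext_contMDiff (fld_smooth (b _).contDiff _)
      ((b _).hasCompactSupport.mono' ((subset_tsupport _).trans (fld_supp _ _)))
  · refine ((ψ' _).tsupport_ext
      ((b _).hasCompactSupport.mono' ((subset_tsupport _).trans (fld_supp _ _)))).trans ?_
    exact (image_subset_range _ _).trans (hψU _)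
  · obtain ⟨l, hl, hgood⟩ := exists_good_pieces hG hf hi ψ' x' (fun j z => b j z)
      (fun j => (b j).contDiff) (fun j => (b j).hasCompactSupport)
      (fun j z hz => (b j).eventuallyEq_one_of_mem_ball
        (lt_of_le_of_lt (Metric.mem_closedBall.1 hz) (by norm_num [b])))
      Finset.univ hε
    refine ⟨l, hl, fun q hq => ?_⟩
    obtain ⟨p, hp, hqp⟩ := mem_iUnion₂.1 (ht hq)
    have := hgood (t.equivFin ⟨p, hp⟩) (Finset.mem_univ _) q (by
      simp only [ψ', x', Equiv.symm_apply_apply]
      exact image_mono Metric.ball_subset_closedBall hqp)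
    exact this

end Vale.Agent.P205F.Start.Generic
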