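import Vale.Agent.P205F.InterfacesTwist
import Vale.Agent.P205F.GoodAlg.Base

/-!
# START, genericity: derivatives `pdm` of polynomials and of the linearised metric

Centred monomials, their derivatives at the centre, and the jets of `Lin F w` when the low jets of
`w` vanish and the next ones are normal.
-/

namespace Vale.Agent.P205F.Start.Generic

open scoped ContDiff RealInnerProductSpace Topology
open Filter

variable {X Y : Type*} [NormedAddCommGroup X] [NormedSpace ℝ X] [NormedAddCommGroup Y]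
  [NormedSpace ℝ Y]

lemma smooth_pd {g : E2 → X} (hg : ContDiff ℝ ∞ g) (k : Fin 2) : ContDiff ℝ ∞ (pd k g) :=
  (hg.fderiv_right (by exact_mod_cast le_top)).clm_apply contDiff_const

lemma smooth_pdm {g : E2 → X} (hg : ContDiff ℝ ∞ g) : ∀ i j, ContDiff ℝ ∞ (pdm i j g)
  | 0, 0 => hg
  | 0, j + 1 => by
    show ContDiff ℝ ∞ ((pd 1)^[j + 1] g)
    rw [Function.iterate_succ_apply']
    exact smooth_pd (smooth_pdm hg 0 j) 1
  | i + 1, j => by
    show ContDiff ℝ ∞ ((pd 0)^[i + 1] ((pd 1)^[j] g))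
    rw [Function.iterate_succ_apply']
    exact smooth_pd (smooth_pdm hg i j) 0

lemma pdm_zero_right (i : ℕ) (g : E2 → X) : pdm i 0 g = (pd 0)^[i] g := rfl

lemma pdm_succ_left (i j : ℕ) (g : E2 → X) : pdm (i + 1) j g = pd 0 (pdm i j g) :=
  Function.iterate_succ_apply' _ _ _

lemma pdm_zero_succ (j : ℕ) (g : E2 → X) : pdm 0 (j + 1) g = pd 1 (pdm 0 j g) :=
  Function.iterate_succ_apply' _ _ _

lemma pdm_pd_one (i j : ℕ) (g : E2 → X) : pdm i j (pd 1 g) = pdm i (j + 1) g := rfl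

lemma pdm_pd_zero {g : E2 → X} (hg : ContDiff ℝ ∞ g) (i j : ℕ) :
    pdm i j (pd 0 g) = pdm (i + 1) j g := by
  have h : ∀ j, (pd 1)^[j] (pd 0 g) = pd 0 ((pd 1)^[j] g) := by
    intro j
    induction j with
    | zero => rfl
    | succ j ih =>
      rw [Function.iterate_succ_apply', ih, Function.iterate_succ_apply']
      funext z
      exact pd_comm (smooth_pdm hg 0 j) 1 0 z
  show (pd 0)^[i] ((pd 1)^[j] (pd 0 g)) = (pd 0)^[i + 1] ((pd 1)^[j] g)
  rw [h]
  rfl

/-- Induction on the two orders. -/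
lemma pdm_induction {P : ℕ → ℕ → Prop} (h00 : P 0 0) (h1 : ∀ j, P 0 j → P 0 (j + 1))
    (h0 : ∀ i j, P i j → P (i + 1) j) : ∀ i j, P i j := by
  intro i j
  induction i with
  | zero => induction j with
    | zero => exact h00
    | succ j ih => exact h1 j ih
  | succ i ih => exact h0 i j ih

lemma pdm_congr {g g' : E2 → X} {x : E2} (h : g =ᶠ[𝓝 x] g') (i j : ℕ) :
    pdm i j g =ᶠ[𝓝 x] pdm i j g' := by
  have hp : ∀ {u u' : E2 → X} (k : Fin 2), u =ᶠ[𝓝 x] u' → pd k u =ᶠ[𝓝 x] pd k u' :=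
    fun k h => (h.fderiv (𝕜 := ℝ)).mono fun z hz => by simp [pd, hz]
  induction i, j using pdm_induction with
  | h00 => exact h
  | h1 j ih => rw [pdm_zero_succ, pdm_zero_succ]; exact hp 1 ih
  | h0 i j ih => rw [pdm_succ_left, pdm_succ_left]; exact hp 0 ih

lemma pdm_add {g g' : E2 → X} (hg : ContDiff ℝ ∞ g) (hg' : ContDiff ℝ ∞ g') (i j : ℕ) :
    pdm i j (fun z => g z + g' z) = fun z => pdm i j g z + pdm i j g' z := by
  induction i, j using pdm_induction with
  | h00 => rfl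
  | h1 j ih =>
    rw [pdm_zero_succ, ih]
    funext z
    rw [pdm_zero_succ, pdm_zero_succ]
    exact pd_add (smooth_pdm hg 0 j) (smooth_pdm hg' 0 j) 1 z
  | h0 i j ih =>
    rw [pdm_succ_left, ih]
    funext z
    rw [pdm_succ_left, pdm_succ_left]
    exact pd_add (smooth_pdm hg i j) (smooth_pdm hg' i j) 0 z

lemma pd_clm {g : E2 → X} (hg : ContDiff ℝ ∞ g) (A : X →L[ℝ] Y) (k : Fin 2) :
    pd k (fun z => A (g z)) = fun z => A (pd k g z) := by
  funext z
  show fderiv ℝ (A ∘ g) z (ev k) = _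
  rw [fderiv_comp z A.differentiableAt (hg.differentiable (by simp) z), A.fderiv]
  rfl

lemma pdm_clm {g : E2 → X} (hg : ContDiff ℝ ∞ g) (A : X →L[ℝ] Y) (i j : ℕ) :
    pdm i j (fun z => A (g z)) = fun z => A (pdm i j g z) := by
  induction i, j using pdm_induction with
  | h00 => rfl
  | h1 j ih => rw [pdm_zero_succ, ih, pd_clm (smooth_pdm hg 0 j), pdm_zero_succ]
  | h0 i j ih => rw [pdm_succ_left, ih, pd_clm (smooth_pdm hg i j), pdm_succ_left]

lemma pdm_const_smul {g : E2 → X} (hg : ContDiff ℝ ∞ g) (c : ℝ) (i j : ℕ) :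
    pdm i j (fun z => c • g z) = fun z => c • pdm i j g z :=
  pdm_clm hg (c • ContinuousLinearMap.id ℝ X) i j

lemma pdm_zero (i j : ℕ) : pdm i j (fun _ : E2 => (0 : X)) = fun _ => 0 := by
  have h : ∀ k, pd k (fun _ : E2 => (0 : X)) = fun _ => 0 := fun k => by funext z; simp [pd]
  induction i, j using pdm_induction with
  | h00 => rfl
  | h1 j ih => rw [pdm_zero_succ, ih, h]
  | h0 i j ih => rw [pdm_succ_left, ih, h]

lemma pdm_sum {ι : Type*} (s : Finset ι) {g : ι → E2 → X} (hg : ∀ k ∈ s, ContDiff ℝ ∞ (g k))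
    (i j : ℕ) : pdm i j (fun z => ∑ k ∈ s, g k z) = fun z => ∑ k ∈ s, pdm i j (g k) z := by
  classical
  induction s using Finset.induction_on with
  | empty => simpa using pdm_zero (X := X) i j
  | insert a s ha ih =>
    simp only [Finset.sum_insert ha]
    rw [pdm_add (hg a (Finset.mem_insert_self a s))
      (ContDiff.sum fun k hk => hg k (Finset.mem_insert_of_mem hk)),
      ih fun k hk => hg k (Finset.mem_insert_of_mem hk)]

/-- A centred monomial. -/
def cmon (x : E2) (a b : ℕ) (z : E2) : ℝ := (z 0 - x 0) ^ a * (z 1 - x 1) ^ b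

lemma smooth_cmon (x : E2) (a b : ℕ) : ContDiff ℝ ∞ (cmon x a b) := by
  have h : ∀ i : Fin 2, ContDiff ℝ ∞ fun z : E2 => z i - x i := fun i =>
    (EuclideanSpace.proj i : E2 →L[ℝ] ℝ).contDiff.sub contDiff_const
  exact ((h 0).pow a).mul ((h 1).pow b)

lemma pd_cmon (x : E2) (a b : ℕ) :
    pd 0 (cmon x a b) = (fun z => (a : ℝ) * cmon x (a - 1) b z) ∧
      pd 1 (cmon x a b) = fun z => (b : ℝ) * cmon x a (b - 1) z := by
  have h : ∀ (i : Fin 2) (n : ℕ) z, HasFDerivAt (fun z : E2 => (z i - x i) ^ n)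
      (((n : ℝ) * (z i - x i) ^ (n - 1)) • (EuclideanSpace.proj i : E2 →L[ℝ] ℝ)) z := fun i n z => by
    simpa using (((EuclideanSpace.proj i : E2 →L[ℝ] ℝ).hasFDerivAt.sub_const (x i)).pow n)
  have hd : ∀ z, HasFDerivAt (cmon x a b) _ z := fun z => (h 0 a z).mul (h 1 b z)
  constructor <;>
  · funext z
    show fderiv ℝ (cmon x a b) z _ = _
    rw [(hd z).fderiv]
    simp [ev, cmon]
    ring

lemma pdm_cmon (x : E2) (a b i j : ℕ) :
    pdm i j (cmon x a b) = fun z =>
      ((a.descFactorial i : ℝ) * (b.descFactorial j : ℝ)) * cmon x (a - i) (b - j) z := by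
  induction i, j using pdm_induction with
  | h00 => funext z; simp [pdm]
  | h1 j ih =>
    rw [pdm_zero_succ, ih]
    funext z
    rw [pd_const_mul _ (smooth_cmon x _ _), (pd_cmon x _ _).2, Nat.sub_sub, Nat.descFactorial_succ,
      Nat.cast_mul]
    ring
  | h0 i j ih =>
    rw [pdm_succ_left, ih]
    funext z
    rw [pd_const_mul _ (smooth_cmon x _ _), (pd_cmon x _ _).1, Nat.sub_sub, Nat.descFactorial_succ,
      Nat.cast_mul]
    ring

/-- Derivatives of a centred monomial at its centre. -/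
lemma pdm_cmon_self (x : E2) (a b i j : ℕ) :
    pdm i j (cmon x a b) x =
      if a = i ∧ b = j then (a.factorial : ℝ) * (b.factorial : ℝ) else 0 := by
  rw [pdm_cmon]
  by_cases h : a = i ∧ b = j
  · obtain ⟨rfl, rfl⟩ := h
    simp [cmon, Nat.descFactorial_self]
  · rw [if_neg h]
    rcases not_and_or.1 h with h | h <;> rcases lt_or_gt_of_ne h with hlt | hlt
    · simp [Nat.descFactorial_eq_zero_iff_lt.2 hlt]
    · simp [cmon, zero_pow (Nat.sub_ne_zero_of_lt hlt)]
    · simp [Nat.descFactorial_eq_zero_iff_lt.2 hlt]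
    · simp [cmon, zero_pow (Nat.sub_ne_zero_of_lt hlt)]

lemma pd_inner {a u : E2 → R4} (ha : ContDiff ℝ ∞ a) (hu : ContDiff ℝ ∞ u) (k : Fin 2) :
    pd k (fun z => ⟪a z, u z⟫) = fun z => ⟪pd k a z, u z⟫ + ⟪a z, pd k u z⟫ := by
  funext z
  show fderiv ℝ (fun z => ⟪a z, u z⟫) z (ev k) = _
  rw [fderiv_inner_apply ℝ (ha.differentiable (by simp) z) (hu.differentiable (by simp) z)]
  exact add_comm _ _

/-- Products with vanishing low jets and orthogonal next jets. -/
lemma inner_jets (x : E2) : ∀ (m : ℕ) {a u : E2 → R4}, ContDiff ℝ ∞ a → ContDiff ℝ ∞ u →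
    (∀ i j, i + j < m → pdm i j u x = 0) → (∀ i j, i + j = m → ⟪a x, pdm i j u x⟫ = 0) →
    ∀ i j, i + j ≤ m → pdm i j (fun z => ⟪a z, u z⟫) x = 0
  | 0, a, u, _, _, _, ho, i, j, hij => by
    obtain ⟨rfl, rfl⟩ : i = 0 ∧ j = 0 := by omega
    exact ho 0 0 rfl
  | m + 1, a, u, ha, hu, hlow, ho, i, j, hij => by
    have zero : ∀ i j, i + j ≤ m → ∀ {b : E2 → R4}, ContDiff ℝ ∞ b →
        pdm i j (fun z => ⟪b z, u z⟫) x = 0 := fun i j h b hb =>
      inner_jets x m hb hu (fun i j h' => hlow i j (by omega))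
        (fun i j h' => by rw [hlow i j (by omega), inner_zero_right]) i j h
    rcases j with _ | j
    · rcases i with _ | i
      · show ⟪a x, u x⟫ = 0
        rw [show u x = 0 from hlow 0 0 (by omega), inner_zero_right]
      · rw [← pdm_pd_zero (ha.inner ℝ hu), pd_inner ha hu,
          pdm_add ((smooth_pd ha 0).inner ℝ hu) (ha.inner ℝ (smooth_pd hu 0))]
        show pdm i 0 _ x + pdm i 0 _ x = 0
        rw [zero i 0 (by omega) (smooth_pd ha 0), inner_jets x m ha (smooth_pd hu 0)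
          (fun i j h => by rw [pdm_pd_zero hu]; exact hlow _ _ (by omega))
          (fun i j h => by rw [pdm_pd_zero hu]; exact ho _ _ (by omega)) i 0 (by omega), add_zero]
    · rw [← pdm_pd_one, pd_inner ha hu,
        pdm_add ((smooth_pd ha 1).inner ℝ hu) (ha.inner ℝ (smooth_pd hu 1))]
      show pdm i j _ x + pdm i j _ x = 0
      rw [zero i j (by omega) (smooth_pd ha 1), inner_jets x m ha (smooth_pd hu 1)
        (fun i j h => by rw [pdm_pd_one]; exact hlow _ _ (by omega))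
        (fun i j h => by rw [pdm_pd_one]; exact ho _ _ (by omega)) i j (by omega), add_zero]

/-- The linearised metric does not see a first normal jet. -/
lemma lin_jets {F w : E2 → R4} {x : E2} (hF : ContDiff ℝ ∞ F) (hw : ContDiff ℝ ∞ w) {n : ℕ}
    (hlow : ∀ i j, i + j < n → pdm i j w x = 0)
    (horth : ∀ i j, i + j = n → ∀ v, ⟪fderiv ℝ F x v, pdm i j w x⟫ = 0) :
    ∀ i j, i + j + 1 ≤ n → pdm i j (Lin F w) x = 0 := by
  intro i j hij
  obtain ⟨m, rfl⟩ : ∃ m, n = m + 1 := ⟨n - 1, by omega⟩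
  have hs : ∀ a b : Fin 2, ContDiff ℝ ∞ fun z => ⟪pd a F z, pd b w z⟫ := fun a b =>
    (smooth_pd hF a).inner ℝ (smooth_pd hw b)
  have key : ∀ a b : Fin 2, pdm i j (fun z => ⟪pd a F z, pd b w z⟫) x = 0 := by
    intro a b
    refine inner_jets x m (smooth_pd hF a) (smooth_pd hw b) ?_ ?_ i j (by omega)
    · intro i j h
      fin_cases b
      · exact (congrFun (pdm_pd_zero hw i j) x).trans (hlow _ _ (by omega))
      · exact (congrFun (pdm_pd_one i j w) x).trans (hlow _ _ (by omega))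
    · intro i j h
      fin_cases b
      · exact (congrArg (fun p => ⟪pd a F x, p⟫) (congrFun (pdm_pd_zero hw i j) x)).trans
          (horth _ _ (by omega) (ev a))
      · exact (congrArg (fun p => ⟪pd a F x, p⟫) (congrFun (pdm_pd_one i j w) x)).trans
          (horth _ _ (by omega) (ev a))
  have hL : ContDiff ℝ ∞ (Lin F w) := by
    refine contDiff_pi.2 fun k => ?_
    fin_cases k
    · exact contDiff_const.mul (hs 0 0)
    · exact (hs 0 1).add (hs 1 0)
    · exact contDiff_const.mul (hs 1 1)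
  funext k
  have h1 := congrFun (pdm_clm hL (ContinuousLinearMap.proj (R := ℝ) (φ := fun _ : Fin 3 => ℝ) k) i j) x
  refine h1.symm.trans ?_
  fin_cases k
  · show pdm i j (fun z => (2 : ℝ) * ⟪pd 0 F z, pd 0 w z⟫) x = 0
    rw [show (fun z => (2 : ℝ) * ⟪pd 0 F z, pd 0 w z⟫) =
      fun z => (2 : ℝ) • ⟪pd 0 F z, pd 0 w z⟫ from rfl, pdm_const_smul (hs 0 0)]
    simp [key]
  · show pdm i j (fun z => ⟪pd 0 F z, pd 1 w z⟫ + ⟪pd 1 F z, pd 0 w z⟫) x = 0
    rw [pdm_add (hs 0 1) (hs 1 0)]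
    simp [key]
  · show pdm i j (fun z => (2 : ℝ) * ⟪pd 1 F z, pd 1 w z⟫) x = 0
    rw [show (fun z => (2 : ℝ) * ⟪pd 1 F z, pd 1 w z⟫) =
      fun z => (2 : ℝ) • ⟪pd 1 F z, pd 1 w z⟫ from rfl, pdm_const_smul (hs 1 1)]
    simp [key]

end Vale.Agent.P205F.Start.Generic
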