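import Vale.Agent.P205F.Start.Generic.Jets

/-!
# START, genericity: the polynomial family on the plane is a family in the sense of `Fam`

`F l = f + M⁻¹ φ Σ l_k x^a y^b e_c`, with `φ = 1` near `K`.
-/

namespace Vale.Agent.P205F.Start.Generic

open scoped ContDiff RealInnerProductSpace Topology Manifold
open Filter

/-- The indices: two degrees at most ten and a component. -/
abbrev Idx : Type := Fin 11 × Fin 11 × Fin 4

/-- The number of parameters. -/
def nIdx : ℕ := Fintype.card Idx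

/-- The enumeration of the indices. -/
noncomputable def idxEquiv : Idx ≃ Fin nIdx := Fintype.equivFin Idx

attribute [irreducible] nIdx

/-- The degrees and component of a parameter. -/
noncomputable def idx (k : Fin nIdx) : Idx := idxEquiv.symm k

/-- The perturbation fields. -/
noncomputable def fld (φ : E2 → ℝ) (k : Fin nIdx) (z : E2) : R4 :=
  φ z • ((z 0 ^ ((idx k).1 : ℕ) * z 1 ^ ((idx k).2.1 : ℕ)) •
    EuclideanSpace.single (idx k).2.2 (1 : ℝ))

lemma fld_smooth {φ : E2 → ℝ} (hφ : ContDiff ℝ ∞ φ) (k : Fin nIdx) :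
    ContDiff ℝ ∞ (fld φ k) := by
  have h : ∀ i : Fin 2, ContDiff ℝ ∞ fun z : E2 => z i := fun i =>
    (EuclideanSpace.proj i : E2 →L[ℝ] ℝ).contDiff
  exact hφ.smul ((((h 0).pow _).mul ((h 1).pow _)).smul contDiff_const)

lemma fld_supp (φ : E2 → ℝ) (k : Fin nIdx) : tsupport (fld φ k) ⊆ tsupport φ :=
  closure_mono fun z hz h => hz (by simp [fld, h])

/-- The sum of the fields. -/
noncomputable def comb (φ : E2 → ℝ) (l : Fin nIdx → ℝ) (z : E2) : R4 :=
  ∑ k, l k • fld φ k z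

lemma comb_smooth {φ : E2 → ℝ} (hφ : ContDiff ℝ ∞ φ) (l : Fin nIdx → ℝ) :
    ContDiff ℝ ∞ (comb φ l) :=
  ContDiff.sum fun k _ => (fld_smooth hφ k).const_smul _

lemma expand_pow (u x : ℝ) {a : ℕ} (ha : a < 11) :
    (u - x) ^ a = ∑ a' : Fin 11, (a.choose (a' : ℕ) : ℝ) * u ^ (a' : ℕ) * (-x) ^ (a - (a' : ℕ)) := by
  rw [Fin.sum_univ_eq_sum_range fun k => (a.choose k : ℝ) * u ^ k * (-x) ^ (a - k),
    sub_eq_add_neg, add_pow,
    Finset.sum_subset (Finset.range_mono (show a + 1 ≤ 11 by omega)) fun k _ hk => ?_]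
  · exact Finset.sum_congr rfl fun k _ => by ring
  · rw [Finset.mem_range] at hk
    simp [Nat.choose_eq_zero_of_lt (show a < k by omega)]

/-- Parameters whose jets at `x` are `τ`. -/
noncomputable def coef (x : E2) (τ : ℕ → ℕ → R4) (k : Fin nIdx) : ℝ :=
  ∑ a : Fin 11, ∑ b : Fin 11, ((a : ℕ).factorial * (b : ℕ).factorial : ℝ)⁻¹ *
    (((a : ℕ).choose ((idx k).1 : ℕ) : ℝ) * (-(x 0)) ^ ((a : ℕ) - ((idx k).1 : ℕ)) *
      (((b : ℕ).choose ((idx k).2.1 : ℕ) : ℝ) * (-(x 1)) ^ ((b : ℕ) - ((idx k).2.1 : ℕ)))) *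
    τ a b (idx k).2.2

lemma single_sum (v : R4) : ∑ c : Fin 4, v c • EuclideanSpace.single c (1 : ℝ) = v := by
  refine PiLp.ext fun c => ?_
  fin_cases c <;> simp [Fin.sum_univ_four]

lemma comb_coef {φ : E2 → ℝ} (x : E2) (τ : ℕ → ℕ → R4) {z : E2} (hz : φ z = 1) :
    comb φ (coef x τ) z =
      ∑ a : Fin 11, ∑ b : Fin 11, cmon x a b z •
        (((a : ℕ).factorial * (b : ℕ).factorial : ℝ)⁻¹ • τ a b) := by
  have hc : ∀ (v : R4) (c : Fin 4), v c = (EuclideanSpace.proj c : R4 →L[ℝ] ℝ) v := fun _ _ => rfl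
  refine PiLp.ext fun c => ?_
  rw [hc, hc]
  simp only [comb, fld, hz, one_smul, map_sum, map_smul]
  rw [← idxEquiv.sum_comp]
  simp only [← hc, idx, Equiv.symm_apply_apply, coef, smul_eq_mul, PiLp.single_apply]
  rw [← Finset.univ_product_univ, Finset.sum_product]
  simp only [← Finset.univ_product_univ, Finset.sum_product, mul_ite, mul_one, mul_zero,
    Finset.sum_ite_eq, Finset.mem_univ, if_true]
  rw [← Finset.sum_product', ← Finset.sum_product']
  simp only [Finset.univ_product_univ]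
  simp only [← Fintype.sum_prod_type', Finset.sum_mul]
  rw [Fintype.sum_prod_type_right]
  refine Finset.sum_congr rfl fun q _ => ?_
  rw [cmon, expand_pow _ _ q.1.isLt, expand_pow _ _ q.2.isLt, Finset.sum_mul_sum,
    ← Fintype.sum_prod_type', Finset.sum_mul]
  refine Finset.sum_congr rfl fun r _ => ?_
  ring

lemma pdm_comb_coef {φ : E2 → ℝ} {x : E2} (hx : φ =ᶠ[𝓝 x] fun _ => 1)
    (τ : ℕ → ℕ → R4) {i j : ℕ} (hij : i + j ≤ 10) :
    pdm i j (comb φ (coef x τ)) x = τ i j := by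
  have he : comb φ (coef x τ) =ᶠ[𝓝 x] fun z => ∑ a : Fin 11, ∑ b : Fin 11, cmon x a b z •
      (((a : ℕ).factorial * (b : ℕ).factorial : ℝ)⁻¹ • τ a b) := by
    filter_upwards [hx] with z hz using comb_coef x τ hz
  rw [(pdm_congr he i j).eq_of_nhds]
  have hs : ∀ a b : Fin 11, ContDiff ℝ ∞ fun z => cmon x a b z •
      (((a : ℕ).factorial * (b : ℕ).factorial : ℝ)⁻¹ • τ a b) := fun a b =>
    (smooth_cmon x a b).smul contDiff_const
  rw [pdm_sum _ fun a _ => ContDiff.sum fun b _ => hs a b]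
  simp only
  have hterm : ∀ a b : Fin 11, pdm i j (fun z => cmon x a b z •
      (((a : ℕ).factorial * (b : ℕ).factorial : ℝ)⁻¹ • τ a b)) x =
      if (a : ℕ) = i ∧ (b : ℕ) = j then τ a b else 0 := fun a b => by
    refine (congrFun (pdm_clm (smooth_cmon x a b) (ContinuousLinearMap.toSpanSingleton ℝ
      (((a : ℕ).factorial * (b : ℕ).factorial : ℝ)⁻¹ • τ a b)) i j) x).trans ?_
    rw [ContinuousLinearMap.toSpanSingleton_apply, pdm_cmon_self]
    split
    · rw [smul_smul, mul_inv_cancel₀, one_smul]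
      exact mul_ne_zero (by exact_mod_cast Nat.factorial_ne_zero _)
        (by exact_mod_cast Nat.factorial_ne_zero _)
    · exact zero_smul _ _
  simp only [fun a => congrFun (pdm_sum (Finset.univ) (fun b _ => hs a b) i j) x, hterm]
  rw [Finset.sum_eq_single (⟨i, by omega⟩ : Fin 11), Finset.sum_eq_single (⟨j, by omega⟩ : Fin 11)]
  · simp
  · intro b _ hb
    rw [if_neg fun h => hb (Fin.ext h.2)]
  · simp
  · intro a _ ha
    exact Finset.sum_eq_zero fun b _ => if_neg fun h => ha (Fin.ext h.1)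
  · simp

end Vale.Agent.P205F.Start.Generic
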