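import Vale.Agent.P205F.Start.Generic.Family
import Vale.Agent.P205F.Twist.Assembly
import Vale.Agent.P205F.Chart.Frame

/-!
# START, genericity: goodness on a compact set of the plane by a small perturbation

The polynomial family satisfies `Fam` with `e₁ = 4`, `e₂ = 1`; the goodness lemma gives a parameter.
-/

namespace Vale.Agent.P205F.Start.Generic

open scoped ContDiff RealInnerProductSpace Topology Manifold
open Filter Set

lemma isCompact_box (d : ℕ) : IsCompact (Box d) := by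
  have : Box d = Set.pi univ fun _ : Fin d => Icc (-1 : ℝ) 1 := by
    ext l; simp only [Box, abs_le, Set.mem_setOf_eq, Set.mem_pi, mem_univ, true_implies, mem_Icc]
  rw [this]
  exact isCompact_univ_pi fun _ => isCompact_Icc

/-- The family at frequency `M`. -/
noncomputable def famM (f : E2 → R4) (φ : E2 → ℝ) (M : ℕ) (l : Fin nIdx → ℝ)
    (z : E2) : R4 :=
  f z + (M : ℝ)⁻¹ • comb φ l z

lemma dlam_famM (f : E2 → R4) (φ : E2 → ℝ) (M : ℕ) (l v : Fin nIdx → ℝ) :
    dlam (famM f φ M) l v = fun z => (M : ℝ)⁻¹ • comb φ v z := by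
  funext z
  let L : (Fin nIdx → ℝ) →L[ℝ] R4 := (M : ℝ)⁻¹ •
    ∑ k, (ContinuousLinearMap.proj (R := ℝ) (φ := fun _ : Fin nIdx => ℝ) k).smulRight
      (fld φ k z)
  have hL : ∀ l, L l = (M : ℝ)⁻¹ • comb φ l z := fun l => by
    simp [L, comb]
  have h : (fun l' => famM f φ M l' z) = fun l' => f z + L l' := by
    funext l'; rw [hL]; rfl
  rw [dlam, h, fderiv_const_add, L.fderiv, hL]

/-- A bound for a continuous function on a compact set. -/
lemma exists_norm_bound {α X : Type*} [TopologicalSpace α] [NormedAddCommGroup X] {K : Set α}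
    (hK : IsCompact K) {g : α → X} (hg : Continuous g) : ∃ B : ℝ, 0 ≤ B ∧ ∀ x ∈ K, ‖g x‖ ≤ B := by
  obtain ⟨B, hB⟩ := hK.exists_bound_of_continuousOn hg.continuousOn
  exact ⟨max B 0, le_max_right _ _, fun x hx => (hB x hx).trans (le_max_left _ _)⟩

lemma exists_coef_bound {K : Set E2} (hK : IsCompact K) :
    ∃ W : ℝ, 0 ≤ W ∧ ∀ x ∈ K, ∀ (τ : ℕ → ℕ → R4) (T : ℝ), (∀ a b, ‖τ a b‖ ≤ T) →
      ‖coef x τ‖ ≤ W * T := by
  let w : E2 → ℝ := fun x => ∑ k : Fin nIdx, ∑ a : Fin 11, ∑ b : Fin 11,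
    |((a : ℕ).factorial * (b : ℕ).factorial : ℝ)⁻¹ *
      (((a : ℕ).choose ((idx k).1 : ℕ) : ℝ) * (-(x 0)) ^ ((a : ℕ) - ((idx k).1 : ℕ)) *
        (((b : ℕ).choose ((idx k).2.1 : ℕ) : ℝ) * (-(x 1)) ^ ((b : ℕ) - ((idx k).2.1 : ℕ))))|
  have hw : Continuous w := by
    refine continuous_finsetSum _ fun k _ => continuous_finsetSum _ fun a _ =>
      continuous_finsetSum _ fun b _ => Continuous.abs ?_
    fun_prop
  obtain ⟨W, hW0, hW⟩ := exists_norm_bound hK hw
  refine ⟨W, hW0, fun x hx τ T hτ => ?_⟩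
  have hT : 0 ≤ T := (norm_nonneg _).trans (hτ 0 0)
  refine (pi_norm_le_iff_of_nonneg (mul_nonneg hW0 hT)).2 fun k => ?_
  rw [coef, Real.norm_eq_abs]
  refine le_trans ?_ (mul_le_mul_of_nonneg_right ((le_abs_self _).trans (hW x hx)) hT)
  simp only [w, Finset.sum_mul]
  refine le_trans ?_ (Finset.single_le_sum (fun k _ => Finset.sum_nonneg fun a _ =>
    Finset.sum_nonneg fun b _ => mul_nonneg (abs_nonneg _) hT) (Finset.mem_univ k))
  refine (Finset.abs_sum_le_sum_abs _ _).trans (Finset.sum_le_sum fun a _ =>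
    (Finset.abs_sum_le_sum_abs _ _).trans (Finset.sum_le_sum fun b _ => ?_))
  rw [abs_mul]
  exact mul_le_mul_of_nonneg_left ((PiLp.norm_apply_le (τ a b) _).trans (hτ a b)) (abs_nonneg _)

lemma orth_of_nrm {F : E2 → R4} {x : E2} {σ : R4} (h : nrm F x σ = σ) (v : E2) :
    ⟪fderiv ℝ F x v, σ⟫ = 0 := by
  rw [← h]; exact nrm_mem F x σ v

/-- The family satisfies `Fam`. -/
theorem exists_fam {f : E2 → R4} {φ : E2 → ℝ} {K : Set E2} (hf : ContDiff ℝ ∞ f)
    (hφ : ContDiff ℝ ∞ φ) (hK : IsCompact K) (hinj : ∀ x ∈ K, Function.Injective (fderiv ℝ f x))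
    (hφ1 : ∀ x ∈ K, φ =ᶠ[𝓝 x] fun _ => 1) (κ : ℕ) :
    ∃ (C : ℝ) (M₀ : ℕ), ∀ M, M₀ ≤ M → Fam false (famM f φ M) K C 4 κ 1 M := by
  have hT : Continuous fun x => fderiv ℝ f x := hf.continuous_fderiv (by simp)
  obtain ⟨C₀, hC₀, hlow⟩ := Twist.exists_lower_bound hT hK hinj
  obtain ⟨W, hW0, hW⟩ := exists_coef_bound hK
  have hbox := isCompact_box nIdx
  have hG : ContDiff ℝ ∞ (Function.uncurry (comb φ)) := by
    show ContDiff ℝ ∞ fun q : (Fin nIdx → ℝ) × E2 => ∑ k, q.1 k • fld φ k q.2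
    exact ContDiff.sum fun k _ => ((contDiff_apply ℝ ℝ k).comp contDiff_fst).smul
      ((fld_smooth hφ k).comp contDiff_snd)
  have hfs : ContDiff ℝ ∞ fun q : (Fin nIdx → ℝ) × E2 => f q.2 := hf.comp contDiff_snd
  have hB := fun n : Fin 13 =>
    exists_norm_bound (hbox.prod (hK.cthickening (r := 1)))
      ((hfs.continuous_iteratedFDeriv (m := (n : ℕ)) (by exact_mod_cast le_top)).norm.add
        (hG.continuous_iteratedFDeriv (m := (n : ℕ)) (by exact_mod_cast le_top)).norm)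
  choose B hB0 hB using hB
  have hD : ∀ x ∈ K, ∀ l ∈ Box nIdx, Continuous fun z => fderiv ℝ (comb φ l) z :=
    fun x _ l _ => (comb_smooth hφ l).continuous_fderiv (by simp)
  obtain ⟨B₁, hB₁0, hB₁⟩ := exists_norm_bound hK
    (continuous_finsetSum Finset.univ fun k _ =>
      ((fld_smooth hφ k).continuous_fderiv (by simp)).norm)
  have hP := fun q : Fin 4 × Fin 4 => exists_norm_bound hK
    (((smooth_pdm hf (q.1 : ℕ) (q.2 : ℕ)).continuous.norm).add
      (continuous_finsetSum Finset.univ fun k _ =>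
        (smooth_pdm (fld_smooth hφ k) (q.1 : ℕ) (q.2 : ℕ)).continuous.norm))
  choose P hP0 hP using hP
  set C : ℝ := 1 + 2 * C₀ + W + ∑ n, B n + ∑ q, P q with hC
  have hsB : 0 ≤ ∑ n, B n := Finset.sum_nonneg fun n _ => hB0 n
  have hsP : 0 ≤ ∑ q, P q := Finset.sum_nonneg fun q _ => hP0 q
  refine ⟨C, ⌈2 * C₀ * B₁⌉₊ + 1, fun M hM => ?_⟩
  have hM1 : (1 : ℝ) ≤ M := by exact_mod_cast (Nat.le_add_left 1 _).trans hM
  have hM0 : (0 : ℝ) < M := lt_of_lt_of_le one_pos hM1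
  have ht1 : (M : ℝ)⁻¹ ≤ 1 := inv_le_one_of_one_le₀ hM1
  have ht0 : (0 : ℝ) ≤ (M : ℝ)⁻¹ := by positivity
  have hCpos : 0 ≤ C := by positivity
  have hC1 : 1 ≤ C := by rw [hC]; linarith
  have hCM : ∀ e : ℕ, C ≤ C * (M : ℝ) ^ e := fun e => le_mul_of_one_le_right hCpos (one_le_pow₀ hM1)
  have hη : 0 ≤ C * (M : ℝ) ^ 4 / (M : ℝ) ^ κ := by positivity
  have hFs : ∀ l, ContDiff ℝ ∞ (famM f φ M l) := fun l =>
    hf.add ((comb_smooth hφ l).const_smul _)
  have hsolve : ∀ (l : Fin nIdx → ℝ) (x : E2) (τ : ℕ → ℕ → R4),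
      dlam (famM f φ M) l ((M : ℝ) • coef x τ) = comb φ (coef x τ) := fun l x τ => by
    rw [dlam_famM]
    funext z
    simp [comb, Finset.smul_sum, smul_smul, ← mul_assoc, hM0.ne']
  have hnv : ∀ x ∈ K, ∀ (τ : ℕ → ℕ → R4) (T : ℝ), (∀ a b, ‖τ a b‖ ≤ T) →
      ‖(M : ℝ) • coef x τ‖ ≤ C * ((M : ℝ) * T) := fun x hx τ T hτ => by
    have hT : 0 ≤ T := (norm_nonneg _).trans (hτ 0 0)
    rw [norm_smul, Real.norm_eq_abs, abs_of_pos hM0]
    calc (M : ℝ) * ‖coef x τ‖ ≤ (M : ℝ) * (W * T) :=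
          mul_le_mul_of_nonneg_left (hW x hx τ T hτ) hM0.le
      _ = W * ((M : ℝ) * T) := by ring
      _ ≤ C * ((M : ℝ) * T) := by
          refine mul_le_mul_of_nonneg_right ?_ (by positivity)
          rw [hC]; linarith
  refine ⟨?_, ?_, ?_, ?_, fun h => by simp at h, ?_, ?_⟩
  · exact hfs.add (hG.const_smul _)
  · intro l hl x hx n hn
    refine le_trans ?_ (hCM 4)
    have hd : ∀ {g : (Fin nIdx → ℝ) × E2 → R4}, ContDiff ℝ ∞ g →
        ContDiffAt ℝ (n : ℕ) g (l, x) := fun h => (h.of_le (by exact_mod_cast le_top)).contDiffAt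
    have he : Function.uncurry (famM f φ M) =
        fun q => f q.2 + (M : ℝ)⁻¹ • Function.uncurry (comb φ) q := rfl
    rw [he, fun_iteratedFDeriv_add_apply (hd hfs) ((hd hG).const_smul _),
      iteratedFDeriv_const_smul_apply' (hd hG)]
    refine (norm_add_le _ _).trans ?_
    rw [norm_smul, Real.norm_eq_abs, abs_of_nonneg ht0]
    have h : ‖iteratedFDeriv ℝ n (fun q : (Fin nIdx → ℝ) × E2 => f q.2) (l, x)‖ +
        ‖iteratedFDeriv ℝ n (Function.uncurry (comb φ)) (l, x)‖ ≤ B ⟨n, by omega⟩ :=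
      (le_abs_self _).trans (hB ⟨n, by omega⟩ (l, x) ⟨hl, hx⟩)
    have h1 : B ⟨n, by omega⟩ ≤ ∑ m, B m :=
      Finset.single_le_sum (f := B) (fun m _ => hB0 m) (Finset.mem_univ _)
    have h2 := mul_le_of_le_one_left (norm_nonneg
      (iteratedFDeriv ℝ n (Function.uncurry (comb φ)) (l, x))) ht1
    rw [hC]
    linarith
  · intro l hl x hx w
    have hfd : fderiv ℝ (famM f φ M l) x w =
        fderiv ℝ f x w + (M : ℝ)⁻¹ • ∑ k, l k • fderiv ℝ (fld φ k) x w := by
      show fderiv ℝ (fun z => f z + (M : ℝ)⁻¹ • comb φ l z) x w = _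
      rw [fderiv_fun_add (hf.differentiable (by simp) x)
        (((comb_smooth hφ l).const_smul _).differentiable (by simp) x),
        fderiv_fun_const_smul ((comb_smooth hφ l).differentiable (by simp) x)]
      simp only [add_apply, smul_apply]
      rw [show fderiv ℝ (comb φ l) x = fderiv ℝ (fun y => ∑ k, l k • fld φ k y) x from rfl,
        fderiv_fun_sum fun k _ => ((fld_smooth hφ k).const_smul _).differentiable (by simp) x]
      simp only [ContinuousLinearMap.sum_apply]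
      congr 2
      refine Finset.sum_congr rfl fun k _ => ?_
      rw [fderiv_fun_const_smul ((fld_smooth hφ k).differentiable (by simp) x)]
      rfl
    have hS : ‖∑ k, l k • fderiv ℝ (fld φ k) x w‖ ≤ B₁ * ‖w‖ := by
      refine (norm_sum_le _ _).trans ?_
      refine le_trans ?_ (mul_le_mul_of_nonneg_right ((le_abs_self _).trans (hB₁ x hx))
        (norm_nonneg w))
      rw [Finset.sum_mul]
      refine Finset.sum_le_sum fun k _ => ?_
      rw [norm_smul, Real.norm_eq_abs]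
      exact (mul_le_mul (hl k) (ContinuousLinearMap.le_opNorm _ w) (norm_nonneg _) zero_le_one).trans
        (by rw [one_mul])
    have h0 := hlow x hx w
    have h1 : ‖fderiv ℝ f x w‖ ≤ ‖fderiv ℝ (famM f φ M l) x w‖ + (M : ℝ)⁻¹ * (B₁ * ‖w‖) := by
      rw [hfd]
      refine le_trans (le_trans (le_of_eq ?_) (norm_sub_le _ ((M : ℝ)⁻¹ • ∑ k, l k • fderiv ℝ (fld φ k) x w)))
        (add_le_add le_rfl ?_)
      · rw [add_sub_cancel_right]
      · rw [norm_smul, Real.norm_eq_abs, abs_of_nonneg ht0]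
        exact mul_le_mul_of_nonneg_left hS ht0
    have h2 : C₀ * ((M : ℝ)⁻¹ * (B₁ * ‖w‖)) ≤ 1 / 2 * ‖w‖ := by
      have hMc : 2 * C₀ * B₁ ≤ (M : ℝ) :=
        (Nat.le_ceil _).trans (by exact_mod_cast (Nat.le_add_right _ 1).trans hM)
      calc C₀ * ((M : ℝ)⁻¹ * (B₁ * ‖w‖)) = (C₀ * B₁ * (M : ℝ)⁻¹) * ‖w‖ := by ring
        _ ≤ 1 / 2 * ‖w‖ := by
          refine mul_le_mul_of_nonneg_right ?_ (norm_nonneg _)
          rw [← div_eq_mul_inv, div_le_iff₀ hM0]
          linarith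
    have h3 : 2 * C₀ ≤ C := by rw [hC]; linarith
    nlinarith [mul_le_mul_of_nonneg_left h1 hC₀.le,
      mul_le_mul_of_nonneg_right h3 (norm_nonneg (fderiv ℝ (famM f φ M l) x w))]
  · intro l hl x hx i j hij
    refine le_trans ?_ (hCM (i - 1))
    have he : pdm i j (famM f φ M l) x =
        pdm i j f x + (M : ℝ)⁻¹ • ∑ k, l k • pdm i j (fld φ k) x := by
      show pdm i j (fun z => f z + (M : ℝ)⁻¹ • comb φ l z) x = _
      rw [pdm_add hf ((comb_smooth hφ l).const_smul _), pdm_const_smul (comb_smooth hφ l)]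
      show _ + (M : ℝ)⁻¹ • pdm i j (fun z => ∑ k, l k • fld φ k z) x = _
      rw [pdm_sum _ fun k _ => (fld_smooth hφ k).const_smul _]
      simp only [pdm_const_smul (fld_smooth hφ _)]
    rw [he]
    refine (norm_add_le _ _).trans ?_
    rw [norm_smul, Real.norm_eq_abs, abs_of_nonneg ht0]
    have h : ‖pdm i j f x‖ + ∑ k, ‖pdm i j (fld φ k) x‖ ≤ P (⟨i, by omega⟩, ⟨j, by omega⟩) :=
      (le_abs_self _).trans (hP (⟨i, by omega⟩, ⟨j, by omega⟩) x hx)
    have hs : ‖∑ k, l k • pdm i j (fld φ k) x‖ ≤ ∑ k, ‖pdm i j (fld φ k) x‖ :=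
      (norm_sum_le _ _).trans (Finset.sum_le_sum fun k _ => by
        rw [norm_smul, Real.norm_eq_abs]; exact mul_le_of_le_one_left (norm_nonneg _) (hl k))
    have h1 : P (⟨i, by omega⟩, ⟨j, by omega⟩) ≤ ∑ q, P q :=
      Finset.single_le_sum (f := P) (fun q _ => hP0 q) (Finset.mem_univ _)
    have h2 := mul_le_of_le_one_left (norm_nonneg (∑ k, l k • pdm i j (fld φ k) x)) ht1
    rw [hC]
    linarith
  · intro l hl x hx τ hτ
    set τ' : ℕ → ℕ → R4 := fun a b => if a + b ≤ 3 then τ a b else 0 with hτ'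
    have hb : ∀ a b, ‖τ' a b‖ ≤ (M : ℝ) ^ 3 := fun a b => by
      rw [hτ']; simp only
      split
      · next h => exact (hτ a b h).2.trans (pow_le_pow_right₀ hM1 (by omega))
      · simp
    have hjet : ∀ i j, i + j ≤ 10 → pdm i j (comb φ (coef x τ')) x = τ' i j := fun i j h =>
      pdm_comb_coef (hφ1 x hx) τ' h
    refine ⟨(M : ℝ) • coef x τ', (hnv x hx τ' _ hb).trans (by rw [← pow_succ']), ?_, ?_⟩
    · intro i j hij σ _
      rw [hsolve, hjet i j (by omega), hτ']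
      simp [hij]
    · intro h0 i j hij
      rw [hsolve, lin_jets (hFs l) (comb_smooth hφ _) (n := 2) ?_ ?_ i j (by omega), norm_zero]
      · positivity
      · intro i j h
        rw [hjet i j (by omega), hτ']
        simp [show i + j ≤ 3 by omega, h0 i j (by omega)]
      · intro i j h v
        rw [hjet i j (by omega), hτ']
        simp only [show i + j ≤ 3 by omega, if_true]
        exact orth_of_nrm (hτ i j (by omega)).1.1 v
  · intro l hl x hx n i hn3 hn10 hi τ hτ hτ1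
    set τ' : ℕ → ℕ → R4 := fun a b => if a = i ∧ b = n - i then τ else 0 with hτ'
    have hb : ∀ a b, ‖τ' a b‖ ≤ 1 := fun a b => by
      rw [hτ']; simp only; split <;> simp [hτ1]
    have hjet : ∀ i j, i + j ≤ 10 → pdm i j (comb φ (coef x τ')) x = τ' i j := fun i j h =>
      pdm_comb_coef (hφ1 x hx) τ' h
    refine ⟨(M : ℝ) • coef x τ', (hnv x hx τ' _ hb).trans (by rw [mul_one, pow_one]), ?_, ?_, ?_, ?_,
      fun h => by simp at h⟩
    · intro a b hab
      rw [hsolve, hjet a b hab]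
      exact (hb a b).trans (hC1.trans (hCM 4))
    · intro a b hab
      rw [hsolve, hjet a b (by omega), hτ']
      simp only
      rw [if_neg (by omega), norm_zero]
      exact hη
    · intro a ha σ _ _
      rw [hsolve, hjet a (n - a) (by omega), hτ']
      by_cases h : a = i
      · subst h; simpa using hη
      · simpa [h] using hη
    · intro a b hab
      rw [hsolve, lin_jets (hFs l) (comb_smooth hφ _) (n := n) ?_ ?_ a b hab, norm_zero]
      · exact hη
      · intro a b h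
        rw [hjet a b (by omega), hτ']
        simp only
        rw [if_neg (by omega)]
      · intro a b h v
        rw [hjet a b (by omega), hτ']
        simp only
        split
        · exact orth_of_nrm hτ.1 v
        · exact inner_zero_right _

/-- Goodness on a compact set of the plane by arbitrarily small parameters. -/
theorem exists_plane_good (hG : GoodProbStmt false) {f : E2 → R4} {φ : E2 → ℝ} {K : Set E2}
    (hf : ContDiff ℝ ∞ f) (hφ : ContDiff ℝ ∞ φ) (hK : IsCompact K)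
    (hinj : ∀ x ∈ K, Function.Injective (fderiv ℝ f x)) (hφ1 : ∀ x ∈ K, φ =ᶠ[𝓝 x] fun _ => 1)
    {ε : ℝ} (hε : 0 < ε) :
    ∃ l : Fin nIdx → ℝ, ‖l‖ < ε ∧
      ∀ x ∈ K, GdAt (fun z => f z + comb φ l z) x := by
  obtain ⟨I, hI⟩ := hG
  obtain ⟨κ, hκ⟩ := hI 4
  obtain ⟨e₃, he₃⟩ := hκ 1
  obtain ⟨C, M₁, hfam⟩ := exists_fam hf hφ hK hinj hφ1 κ
  obtain ⟨c, hc, M₂, hM₂⟩ := he₃ _ K C hK
  set M := max (max M₁ M₂) (⌈ε⁻¹⌉₊ + 1) with hM
  obtain ⟨z, hz, hgood⟩ :=
    hM₂ M (le_max_of_le_left (le_max_right _ _)) _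
      (hfam M (le_max_of_le_left (le_max_left _ _)))
  have hMε : ε⁻¹ < (M : ℝ) := by
    refine (Nat.le_ceil _).trans_lt (Nat.cast_lt.2 ?_)
    exact lt_of_lt_of_le (Nat.lt_succ_self _) (le_max_right _ _)
  have hM0 : (0 : ℝ) < M := lt_trans (inv_pos.2 hε) hMε
  refine ⟨(M : ℝ)⁻¹ • z, ?_, fun x hx => ?_⟩
  · rw [norm_smul, norm_inv, Real.norm_eq_abs, abs_of_pos hM0]
    calc (M : ℝ)⁻¹ * ‖z‖ ≤ (M : ℝ)⁻¹ * 1 :=
          mul_le_mul_of_nonneg_left ((pi_norm_le_iff_of_nonneg zero_le_one).2 fun k => hz k)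
            (by positivity)
      _ < ε := by rw [mul_one]; exact inv_lt_of_inv_lt₀ hε hMε
  · have he : (fun y => f y + comb φ ((M : ℝ)⁻¹ • z) y) = famM f φ M z := by
      funext y
      simp [famM, comb, Finset.smul_sum, smul_smul]
    rw [he]
    exact Twist.gdAt_of_den I (lt_of_lt_of_le (div_pos hc (pow_pos hM0 _)) (hgood x hx))

end Vale.Agent.P205F.Start.Generic
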